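import Vale.Agent.P245.Poly.Two.Assembly

/-!
# P245: `C_LS(μ) ≤ C (1 + log (n + 1))² a²` for linearly `a`-subgaussian log-concave measures
-/

namespace Vale.Agent.Results.P245.LogSquareBound

open MeasureTheory
open scoped RealInnerProductSpace ENNReal

theorem result :
    ∃ C : ℝ, 0 < C ∧ ∀ n : ℕ, 1 ≤ n →
      ∀ ρ : EuclideanSpace ℝ (Fin n) → ℝ, Measurable ρ → (∀ x, 0 ≤ ρ x) →
        ConcaveOn ℝ {x | 0 < ρ x} (fun x => Real.log (ρ x)) →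
      ∀ μ : Measure (EuclideanSpace ℝ (Fin n)),
        μ = volume.withDensity (fun x => ENNReal.ofReal (ρ x)) → IsProbabilityMeasure μ →
      ∀ a : ℝ, 0 < a →
        (∀ v : EuclideanSpace ℝ (Fin n), ‖v‖ = 1 →
          ∫⁻ x, ENNReal.ofReal (Real.exp (⟪x, v⟫ ^ 2 / a ^ 2)) ∂μ ≤ 2) →
      ∀ f : EuclideanSpace ℝ (Fin n) → ℝ, ContDiff ℝ (⊤ : ℕ∞) f → HasCompactSupport f →
        ∫ x, f x ^ 2 * Real.log (f x ^ 2) ∂μ
            - (∫ x, f x ^ 2 ∂μ) * Real.log (∫ x, f x ^ 2 ∂μ)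
          ≤ C * (1 + Real.log ((n : ℝ) + 1)) ^ 2 * a ^ 2 * ∫ x, ‖fderiv ℝ f x‖ ^ 2 ∂μ := Vale.Agent.P245.Poly.polyGeneral2 Vale.Agent.P245.Poly.polyBdd2'

end Vale.Agent.Results.P245.LogSquareBound
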